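import Vale.Agent.P166.Calc
import Vale.Agent.P157.OnePattern

/-!
Correlation of an even function of two standard Gaussians.
-/

open MeasureTheory ProbabilityTheory
open Vale.Agent.P166 (map_lin)

namespace Vale.Agent.P157.Weak

variable {n : ℕ}

/-- The pair of linear forms. -/
noncomputable def pair (v v' : Fin n → ℝ) (g : Fin n → ℝ) : EuclideanSpace ℝ (Fin 2) :=
  WithLp.toLp 2 ![∑ i, g i * v i, ∑ i, g i * v' i]

theorem measurable_pair (v v' : Fin n → ℝ) : Measurable (pair v v') := by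
  unfold pair
  refine (WithLp.measurable_toLp 2 _).comp (measurable_pi_lambda _ fun j => ?_)
  fin_cases j <;> simp <;> fun_prop

theorem pair_law {m : ℕ} (v v' : Fin n → ℝ) (w w' : Fin m → ℝ)
    (h1 : ∑ i, v i ^ 2 = ∑ i, w i ^ 2) (h2 : ∑ i, v' i ^ 2 = ∑ i, w' i ^ 2)
    (h3 : ∑ i, v i * v' i = ∑ i, w i * w' i) :
    (P166.gs n).map (pair v v') = (P166.gs m).map (pair w w') := by
  have := Measure.isProbabilityMeasure_map (μ := P166.gs n) (measurable_pair v v').aemeasurable
  have := Measure.isProbabilityMeasure_map (μ := P166.gs m) (measurable_pair w w').aemeasurable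
  have key : ∀ {k : ℕ} (a a' : Fin k → ℝ) (t : EuclideanSpace ℝ (Fin 2)),
      charFun ((P166.gs k).map (pair a a')) t
        = Complex.exp ((-((t 0) ^ 2 * ∑ i, a i ^ 2 + 2 * (t 0 * t 1) * (∑ i, a i * a' i)
            + (t 1) ^ 2 * ∑ i, a' i ^ 2) / 2 : ℝ) : ℂ) := by
    intro k a a' t
    rw [charFun_apply, integral_map (measurable_pair a a').aemeasurable (by fun_prop)]
    have e : ∀ g : Fin k → ℝ, inner ℝ (pair a a' g) t = ∑ i, g i * (t 0 * a i + t 1 * a' i) := fun g => by
      simp [pair, PiLp.inner_apply, Fin.sum_univ_two, mul_add, Finset.mul_sum, Finset.sum_add_distrib]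
      congr 1 <;> exact Finset.sum_congr rfl fun i _ => by ring
    simp only [e]
    rw [show P166.gs k = P157.gs k from rfl, P157.charFun_gs]
    rw [Complex.ofReal_exp]
    congr 2
    simp only [add_sq, mul_pow, Finset.sum_add_distrib, ← Finset.mul_sum]
    rw [show ∑ i, 2 * (t 0 * a i) * (t 1 * a' i) = 2 * (t 0 * t 1) * ∑ i, a i * a' i by
      rw [Finset.mul_sum]; exact Finset.sum_congr rfl fun i _ => by ring]
  refine Measure.ext_of_charFun (funext fun t => ?_)
  rw [key, key, h1, h2, h3]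

theorem sq_integral_le {μ : Measure ℝ} [IsProbabilityMeasure μ] {G : ℝ → ℝ} (hi : Integrable G μ)
    (hi2 : Integrable (fun x => G x ^ 2) μ) : (∫ x, G x ∂μ) ^ 2 ≤ ∫ x, G x ^ 2 ∂μ := by
  set c := ∫ x, G x ∂μ
  have h0 : 0 ≤ ∫ x, (G x - c) ^ 2 ∂μ := integral_nonneg fun x => sq_nonneg _
  have e : ∀ x, (G x - c) ^ 2 = G x ^ 2 + (-2 * c * G x + c ^ 2) := fun x => by ring
  simp only [e] at h0
  rw [integral_add hi2 ((hi.const_mul _).fun_add (integrable_const _)),
    integral_add (hi.const_mul _) (integrable_const _), integral_const_mul, integral_const,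
    probReal_univ, one_smul] at h0
  nlinarith

/-- An even function is positively correlated on any pair of standard Gaussians. -/
theorem corr_even {φ : ℝ → ℝ} (hc : Continuous φ) {B : ℝ} (hB : ∀ x, |φ x| ≤ B)
    (heven : ∀ x, φ (-x) = φ x) {v v' : Fin n → ℝ} (hv : ∑ i, v i ^ 2 = 1) (hv' : ∑ i, v' i ^ 2 = 1) :
    (∫ x, φ x ∂gaussianReal 0 1) ^ 2
      ≤ ∫ g, φ (∑ i, g i * v i) * φ (∑ i, g i * v' i) ∂P166.gs n := by
  wlog hρ : 0 ≤ ∑ i, v i * v' i generalizing v'
  · have h := this (v' := fun i => -v' i) (by simpa using hv')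
      (by simp only [mul_neg, Finset.sum_neg_distrib]; linarith [le_of_not_ge hρ])
    simpa only [mul_neg, Finset.sum_neg_distrib, heven] using h
  set ρ := ∑ i, v i * v' i
  have hρ1 : ρ ≤ 1 := by
    refine (Real.sum_mul_le_sqrt_mul_sqrt _ _ _).trans ?_
    rw [hv, hv', Real.sqrt_one, one_mul]
  have hr := Real.sq_sqrt hρ
  have hs := Real.sq_sqrt (sub_nonneg.2 hρ1)
  set r := √ρ
  set s := √(1 - ρ)
  set w : Fin 3 → ℝ := ![r, s, 0]
  set w' : Fin 3 → ℝ := ![r, 0, s]
  have hlaw := pair_law v v' w w'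
    (by simp [w, Fin.sum_univ_three, hv, hr, hs])
    (by simp [w', Fin.sum_univ_three, hv', hr, hs])
    (by simp [w, w', Fin.sum_univ_three, ρ, ← pow_two, hr])
  have hcF : Continuous fun p : EuclideanSpace ℝ (Fin 2) => φ (p 0) * φ (p 1) := by fun_prop
  have e1 : ∫ g, φ (∑ i, g i * v i) * φ (∑ i, g i * v' i) ∂P166.gs n
      = ∫ g, φ (∑ i, g i * w i) * φ (∑ i, g i * w' i) ∂P166.gs 3 := by
    have h := congrArg (fun m : Measure (EuclideanSpace ℝ (Fin 2)) => ∫ p, φ (p 0) * φ (p 1) ∂m) hlaw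
    simp only [] at h
    rw [integral_map (measurable_pair v v').aemeasurable hcF.aestronglyMeasurable,
      integral_map (measurable_pair w w').aemeasurable hcF.aestronglyMeasurable] at h
    simpa [pair] using h
  rw [e1]
  have hbb : ∀ a b : ℝ, |φ a * φ b| ≤ B * B := fun a b => by
    rw [abs_mul]; exact mul_le_mul (hB a) (hB b) (abs_nonneg _) ((abs_nonneg _).trans (hB 0))
  have hmp := (measurePreserving_piFinSuccAbove (fun _ : Fin 3 => gaussianReal 0 1) 0).symm
  have hi : Integrable (fun g : Fin 3 → ℝ => φ (∑ i, g i * w i) * φ (∑ i, g i * w' i)) (P166.gs 3) :=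
    Integrable.of_bound (by fun_prop) (B * B) (ae_of_all _ fun g => hbb _ _)
  have hi' := hi
  rw [P166.gs, ← hmp.map_eq, integrable_map_equiv] at hi'
  rw [P166.gs, ← hmp.map_eq, integral_map_equiv]
  rw [integral_prod]
  swap; · exact hi'
  set G : ℝ → ℝ := fun z => ∫ x, φ (r * z + s * x) ∂gaussianReal 0 1
  have hGb : ∀ z, |G z| ≤ B := fun z => by
    have := norm_integral_le_of_norm_le_const (μ := gaussianReal 0 1) (C := B)
      (f := fun x => φ (r * z + s * x)) (ae_of_all _ fun x => hB _)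
    simpa [G, Real.norm_eq_abs] using this
  have hGc : Continuous G := continuous_of_dominated (bound := fun _ => B) (fun z => by fun_prop)
    (fun z => ae_of_all _ fun x => hB _) (integrable_const _) (ae_of_all _ fun x => by fun_prop)
  have hin : ∀ z : ℝ, ∫ y : Fin 2 → ℝ, φ (∑ i, (Fin.insertNth (α := fun _ => ℝ) 0 z y) i * w i)
      * φ (∑ i, (Fin.insertNth (α := fun _ => ℝ) 0 z y) i * w' i)
      ∂Measure.pi (fun _ : Fin 2 => gaussianReal 0 1) = G z ^ 2 := fun z => by
    have e : ∀ y : Fin 2 → ℝ, φ (∑ i, (Fin.insertNth (α := fun _ => ℝ) 0 z y) i * w i)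
        * φ (∑ i, (Fin.insertNth (α := fun _ => ℝ) 0 z y) i * w' i)
        = ∏ j, φ (r * z + s * y j) := fun y => by
      simp [Fin.sum_univ_succ, Fin.prod_univ_two, w, w', mul_comm]
    simp only [e]
    rw [integral_fintype_prod_eq_prod (f := fun _ (x : ℝ) => φ (r * z + s * x))]
    simp [G, pow_two]
  have hG : ∫ z, G z ∂gaussianReal 0 1 = ∫ x, φ x ∂gaussianReal 0 1 := by
    have hu : ∑ i, (![r, s] : Fin 2 → ℝ) i ^ 2 = 1 := by simp [Fin.sum_univ_two, hr, hs]
    have hm : Measurable fun g : Fin 2 → ℝ => ∑ i, g i * (![r, s] : Fin 2 → ℝ) i :=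
      Finset.measurable_sum Finset.univ fun i _ => (measurable_pi_apply i).mul_const _
    conv_rhs => rw [← map_lin (![r, s] : Fin 2 → ℝ) hu]
    rw [integral_map hm.aemeasurable hc.aestronglyMeasurable]
    have hmp2 := (measurePreserving_piFinSuccAbove (fun _ : Fin 2 => gaussianReal 0 1) 0).symm
    have hi2 : Integrable (fun g : Fin 2 → ℝ => φ (∑ i, g i * (![r, s] : Fin 2 → ℝ) i)) (P166.gs 2) :=
      Integrable.of_bound (hc.measurable.comp hm).aestronglyMeasurable B (ae_of_all _ fun g => hB _)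
    rw [P166.gs, ← hmp2.map_eq, integrable_map_equiv] at hi2
    rw [P166.gs, ← hmp2.map_eq, integral_map_equiv, integral_prod]
    swap; · exact hi2
    refine integral_congr_ae (ae_of_all _ fun z => ?_)
    simp only [G]
    have h1 := (measurePreserving_eval (fun _ : Fin 1 => gaussianReal 0 1) 0)
    conv_lhs => rw [← h1.map_eq]
    rw [integral_map h1.measurable.aemeasurable (by fun_prop)]
    refine integral_congr_ae (ae_of_all _ fun y => ?_)
    simp [Fin.sum_univ_succ, MeasurableEquiv.piFinSuccAbove, Function.eval, mul_comm]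
  refine le_trans ?_ (le_of_eq (integral_congr_ae (f := fun z => G z ^ 2) (ae_of_all _ fun z => (hin z).symm)))
  rw [← hG]
  exact sq_integral_le (Integrable.of_bound hGc.aestronglyMeasurable B (ae_of_all _ fun z => hGb z))
    (Integrable.of_bound (hGc.pow 2).aestronglyMeasurable (B ^ 2) (ae_of_all _ fun z => by
      rw [Real.norm_eq_abs, abs_sq, ← sq_abs]; exact pow_le_pow_left₀ (abs_nonneg _) (hGb z) 2))

end Vale.Agent.P157.Weak
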