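import Vale.Agent.P157.Weak.Deriv
import Vale.Agent.P157.Weak.Cor
import Vale.Agent.P157.Main

/-!
Concavity along the interpolation for weak even potentials, and the one-pattern property.
-/

open MeasureTheory ProbabilityTheory Filter Topology Set
open Vale.Agent.P166 (Tame tame_hl hl vec vec_sq dcov Adm continuous_hl integrable_env_pow)

namespace Vale.Agent.P157.Weak

/-- Size of the error terms. -/
noncomputable def Pot.err (P : Pot) : ℝ :=
  P.bB ^ 2 * (Real.exp (4 * P.bF) - 1)
    + Real.exp (4 * P.bF) * (2 * P.bA ^ 2 * P.bB + 4 * (P.bA ^ 2 + P.bB) * P.bA ^ 2)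

/-- The potential is weak: the errors are dominated by the squared mean curvature. -/
def Pot.Weak (P : Pot) : Prop :=
  (∀ x, P.f2 (-x) = P.f2 x) ∧ P.err ≤ (∫ x, P.f2 x ∂gaussianReal 0 1) ^ 2

variable {S : Type*} [Fintype S] {n : ℕ} {P : Pot} {w : S → ℝ}

section

variable (hw : ∀ s, 0 ≤ w s) (hw1 : ∑ s, w s = 1)
include hw hw1

theorem wp_bounds (h : S → ℝ) (a : S) :
    w a * Real.exp (-(2 * P.bF)) ≤ wp P w h a ∧ wp P w h a ≤ w a * Real.exp (2 * P.bF) := by
  have hz := wz_pos (P := P) hw hw1 h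
  have hlo : Real.exp (-P.bF) ≤ wz P w h := by
    calc Real.exp (-P.bF) = ∑ s, w s * Real.exp (-P.bF) := by rw [← Finset.sum_mul, hw1, one_mul]
      _ ≤ _ := Finset.sum_le_sum fun s _ =>
        mul_le_mul_of_nonneg_left (Real.exp_le_exp.2 (abs_le.1 (P.hF _)).1) (hw s)
  have hhi : wz P w h ≤ Real.exp P.bF := by
    calc wz P w h ≤ ∑ s, w s * Real.exp P.bF := Finset.sum_le_sum fun s _ =>
          mul_le_mul_of_nonneg_left (Real.exp_le_exp.2 (abs_le.1 (P.hF _)).2) (hw s)
      _ = _ := by rw [← Finset.sum_mul, hw1, one_mul]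
  have f1 := Real.exp_le_exp.2 (abs_le.1 (P.hF (h a))).1
  have f2 := Real.exp_le_exp.2 (abs_le.1 (P.hF (h a))).2
  unfold wp
  rw [le_div_iff₀ hz, div_le_iff₀ hz]
  constructor
  · calc w a * Real.exp (-(2 * P.bF)) * wz P w h ≤ w a * Real.exp (-(2 * P.bF)) * Real.exp P.bF :=
          mul_le_mul_of_nonneg_left hhi (mul_nonneg (hw a) (Real.exp_pos _).le)
      _ = w a * Real.exp (-P.bF) := by rw [mul_assoc, ← Real.exp_add]; congr 2; ring
      _ ≤ _ := mul_le_mul_of_nonneg_left f1 (hw a)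
  · calc w a * Real.exp (P.f (h a)) ≤ w a * Real.exp P.bF := mul_le_mul_of_nonneg_left f2 (hw a)
      _ = w a * Real.exp (2 * P.bF) * Real.exp (-P.bF) := by
          rw [mul_assoc, ← Real.exp_add]; congr 2; ring
      _ ≤ _ := mul_le_mul_of_nonneg_left hlo (mul_nonneg (hw a) (Real.exp_pos _).le)

theorem wp_sum (h : S → ℝ) : ∑ a, wp P w h a = 1 := by
  simp only [wp, ← Finset.sum_div]
  exact div_self (wz_pos (P := P) hw hw1 h).ne'

/-- Pointwise lower bound of the second-derivative expression. -/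
theorem wS_ge (D : S → S → ℝ) (h : S → ℝ) :
    ∑ a, ∑ c, w a * w c * D a c ^ 2 * (P.f2 (h a) * P.f2 (h c) - P.err) ≤ wS P w D h := by
  set p := wp P w h
  set A := P.bA
  set B := P.bB
  have hA0 : 0 ≤ A := (abs_nonneg _).trans (P.hA 0)
  have hB0 : 0 ≤ B := (abs_nonneg _).trans (P.hB 0)
  have hF0 : 0 ≤ P.bF := (abs_nonneg _).trans (P.hF 0)
  have hp : ∀ a, 0 ≤ p a := fun a => (wp_mem hw hw1 h a).1
  have hy : ∀ a, wy P w D h a ^ 2 ≤ A ^ 2 * ∑ c, p c * D a c ^ 2 := fun a => by
    have h1 : |wy P w D h a| ≤ A * ∑ c, p c * |D a c| := by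
      rw [Finset.mul_sum]
      refine (Finset.abs_sum_le_sum_abs _ _).trans (Finset.sum_le_sum fun c _ => ?_)
      simp only [wu]
      rw [abs_mul, abs_mul, abs_of_nonneg (hp c)]
      calc |D a c| * (p c * |P.f1 (h c)|) ≤ |D a c| * (p c * A) := by gcongr; exacts [hp c, P.hA _]
        _ = _ := by ring
    have h2 : (∑ c, p c * |D a c|) ^ 2 ≤ ∑ c, p c * D a c ^ 2 := by
      have := Finset.sum_sq_le_sum_mul_sum_of_sq_le_mul Finset.univ (r := fun c => p c * |D a c|)
        (f := p) (g := fun c => p c * D a c ^ 2) (fun c _ => hp c)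
        (fun c _ => mul_nonneg (hp c) (sq_nonneg _)) (fun c _ => le_of_eq (by
          rw [mul_pow, sq_abs]; ring))
      rwa [wp_sum hw hw1, one_mul] at this
    calc wy P w D h a ^ 2 = |wy P w D h a| ^ 2 := (sq_abs _).symm
      _ ≤ (A * ∑ c, p c * |D a c|) ^ 2 := pow_le_pow_left₀ (abs_nonneg _) h1 2
      _ ≤ _ := by rw [mul_pow]; exact mul_le_mul_of_nonneg_left h2 (sq_nonneg A)
  have hqy : ∑ a, wq P w h a * wy P w D h a ^ 2
      ≤ ∑ a, ∑ c, p a * p c * D a c ^ 2 * ((A ^ 2 + B) * A ^ 2) := by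
    refine Finset.sum_le_sum fun a _ => ?_
    have hq : wq P w h a ≤ p a * (A ^ 2 + B) := mul_le_mul_of_nonneg_left
      (add_le_add (by rw [← sq_abs]; exact pow_le_pow_left₀ (abs_nonneg _) (P.hA _) 2)
        (abs_le.1 (P.hB _)).2) (hp a)
    calc wq P w h a * wy P w D h a ^ 2 ≤ p a * (A ^ 2 + B) * wy P w D h a ^ 2 :=
          mul_le_mul_of_nonneg_right hq (sq_nonneg _)
      _ ≤ p a * (A ^ 2 + B) * (A ^ 2 * ∑ c, p c * D a c ^ 2) :=
          mul_le_mul_of_nonneg_left (hy a) (mul_nonneg (hp a) (by positivity))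
      _ = _ := by simp only [Finset.mul_sum]; exact Finset.sum_congr rfl fun c _ => by ring
  have main : ∀ a c, w a * w c * D a c ^ 2 * (P.f2 (h a) * P.f2 (h c) - P.err)
      ≤ wq P w h a * (D a c ^ 2 * wq P w h c)
        - 4 * (p a * p c * D a c ^ 2 * ((A ^ 2 + B) * A ^ 2)) := fun a c => by
    obtain ⟨la, ua⟩ := wp_bounds (P := P) hw hw1 h a
    obtain ⟨lc, uc⟩ := wp_bounds (P := P) hw hw1 h c
    set E := Real.exp (4 * P.bF)
    have hE : 1 ≤ E := Real.one_le_exp (by linarith)
    have hup : p a * p c ≤ w a * w c * E := by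
      calc p a * p c ≤ w a * Real.exp (2 * P.bF) * (w c * Real.exp (2 * P.bF)) :=
            mul_le_mul ua uc (hp c) (mul_nonneg (hw a) (Real.exp_pos _).le)
        _ = _ := by rw [mul_mul_mul_comm, ← Real.exp_add]; congr 2; ring
    have hlo : w a * w c * (2 - E) ≤ p a * p c := by
      have hl : w a * w c * Real.exp (-(4 * P.bF)) ≤ p a * p c := by
        calc w a * w c * Real.exp (-(4 * P.bF))
            = w a * Real.exp (-(2 * P.bF)) * (w c * Real.exp (-(2 * P.bF))) := by
              rw [mul_mul_mul_comm, ← Real.exp_add]; congr 2; ring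
          _ ≤ _ := mul_le_mul la lc (mul_nonneg (hw c) (Real.exp_pos _).le) (hp a)
      refine le_trans (mul_le_mul_of_nonneg_left ?_ (mul_nonneg (hw a) (hw c))) hl
      rw [Real.exp_neg, inv_eq_one_div, le_div_iff₀ (Real.exp_pos _)]
      nlinarith [sq_nonneg (E - 1)]
    set x := P.f2 (h a)
    set z := P.f2 (h c)
    set u := P.f1 (h a) ^ 2
    set v := P.f1 (h c) ^ 2
    have hu0 : 0 ≤ u := sq_nonneg _
    have hv0 : 0 ≤ v := sq_nonneg _
    have hu : u ≤ A ^ 2 := by simp only [u]; rw [← sq_abs (P.f1 (h a))]; exact pow_le_pow_left₀ (abs_nonneg _) (P.hA _) 2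
    have hv : v ≤ A ^ 2 := by simp only [v]; rw [← sq_abs (P.f1 (h c))]; exact pow_le_pow_left₀ (abs_nonneg _) (P.hA _) 2
    have hx := abs_le.1 (P.hB (h a))
    have hz := abs_le.1 (P.hB (h c))
    have huz : -(A ^ 2 * B) ≤ u * z := by
      nlinarith [mul_le_mul_of_nonneg_left hz.1 hu0, mul_le_mul_of_nonneg_right hu hB0]
    have hxv : -(A ^ 2 * B) ≤ x * v := by
      nlinarith [mul_le_mul_of_nonneg_right hx.1 hv0, mul_le_mul_of_nonneg_left hv hB0]
    have hpp : 0 ≤ p a * p c := mul_nonneg (hp a) (hp c)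
    have hprod : p a * p c * (x * z - 2 * (A ^ 2 * B)) ≤ p a * (u + x) * (p c * (v + z)) := by
      calc _ ≤ p a * p c * (x * z + u * z + x * v + u * v) :=
            mul_le_mul_of_nonneg_left (by nlinarith [mul_nonneg hu0 hv0]) hpp
        _ = _ := by ring
    have hxz : |x * z| ≤ B ^ 2 := by
      rw [abs_mul, pow_two]; exact mul_le_mul (P.hB _) (P.hB _) (abs_nonneg _) hB0
    obtain ⟨hxz1, hxz2⟩ := abs_le.1 hxz
    have hmix : w a * w c * (x * z - B ^ 2 * (E - 1)) ≤ p a * p c * (x * z) := by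
      have hd : |p a * p c - w a * w c| ≤ w a * w c * (E - 1) :=
        abs_le.2 ⟨by linarith, by linarith⟩
      have := mul_le_mul hd hxz (abs_nonneg _) ((abs_nonneg _).trans hd)
      rw [← abs_mul] at this
      linarith [(abs_le.1 this).1]
    have hD := sq_nonneg (D a c)
    have hc0 : 0 ≤ 2 * (A ^ 2 * B) + 4 * ((A ^ 2 + B) * A ^ 2) := by positivity
    have hupc := mul_le_mul_of_nonneg_right hup hc0
    have hfin : w a * w c * (x * z - P.err)
        ≤ p a * (u + x) * (p c * (v + z)) - 4 * (p a * p c * ((A ^ 2 + B) * A ^ 2)) := by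
      have eerr : P.err = B ^ 2 * (E - 1) + E * (2 * (A ^ 2 * B) + 4 * ((A ^ 2 + B) * A ^ 2)) := by
        simp only [Pot.err, A, B, E]; ring
      rw [eerr]
      nlinarith [hprod, hmix, hupc]
    have := mul_le_mul_of_nonneg_left hfin hD
    simp only [wq]
    linarith
  have hs : ∑ a, ∑ c, (wq P w h a * (D a c ^ 2 * wq P w h c)
        - 4 * (p a * p c * D a c ^ 2 * ((A ^ 2 + B) * A ^ 2)))
      = ∑ a, wq P w h a * (∑ c, D a c ^ 2 * wq P w h c)
        - 4 * ∑ a, ∑ c, p a * p c * D a c ^ 2 * ((A ^ 2 + B) * A ^ 2) := by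
    simp only [Finset.sum_sub_distrib, Finset.mul_sum]
  refine (Finset.sum_le_sum fun a _ => Finset.sum_le_sum fun c _ => main a c).trans ?_
  rw [hs, wS]
  nlinarith [hqy, sq_nonneg (wQ P w D h)]

/-- The expected second derivative has a sign. -/
theorem integral_wS_nonneg (hP : P.Weak) (D : S → S → ℝ) (v : S → Fin n → ℝ)
    (hv : ∀ s, ∑ i, v s i ^ 2 = 1) :
    0 ≤ ∫ g, wS P w D (fun s => ∑ i, g i * v s i) ∂P166.gs n := by
  set h : (Fin n → ℝ) → S → ℝ := fun g s => ∑ i, g i * v s i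
  have hT : ∀ s, Tame (Set.univ : Set ℝ) fun _ g => h g s := fun s =>
    P166.tame_lin (C := ∑ i, |v s i|) (v := fun _ => v s) (by positivity) fun t _ i =>
      Finset.single_le_sum (f := fun i => |v s i|) (fun i _ => abs_nonneg _) (Finset.mem_univ i)
  have iff : ∀ a c, Integrable (fun g => P.f2 (h g a) * P.f2 (h g c)) (P166.gs n) := fun a c =>
    Integrable.of_bound (Continuous.aestronglyMeasurable (by have := P.c2; fun_prop)) (P.bB * P.bB)
      (ae_of_all _ fun g => by
        rw [Real.norm_eq_abs, abs_mul]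
        exact mul_le_mul (P.hB _) (P.hB _) (abs_nonneg _) ((abs_nonneg _).trans (P.hB 0)))
  have iT : ∀ a c, Integrable
      (fun g => w a * w c * D a c ^ 2 * (P.f2 (h g a) * P.f2 (h g c) - P.err)) (P166.gs n) :=
    fun a c => ((iff a c).sub' (integrable_const _)).const_mul _
  refine le_trans ?_ (integral_mono (integrable_finsetSum _ fun a _ => integrable_finsetSum _ fun c _ => iT a c)
    ((tame_S (P := P) (D := D) hw hw1 hT).integrable (Set.mem_univ 0)) fun g => wS_ge hw hw1 D (h g))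
  rw [integral_finsetSum _ fun a _ => integrable_finsetSum _ fun c _ => iT a c]
  refine Finset.sum_nonneg fun a _ => ?_
  rw [integral_finsetSum _ fun c _ => iT a c]
  refine Finset.sum_nonneg fun c _ => ?_
  rw [integral_const_mul]
  refine mul_nonneg (mul_nonneg (mul_nonneg (hw a) (hw c)) (sq_nonneg _)) ?_
  rw [integral_sub (iff a c) (integrable_const _), integral_const, probReal_univ, one_smul, sub_nonneg]
  exact hP.2.trans (corr_even P.c2 P.hB hP.1 (hv a) (hv c))

theorem interp_concave (hP : P.Weak) {v1 v2 : S → Fin n → ℝ} (hv : Adm v1 v2) :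
    ConcaveOn ℝ (Icc (0 : ℝ) 1) fun t => ∫ g, wl P w (hl v1 v2 t g) ∂P166.gs n := by
  have hcont : ∀ {F : (S → ℝ) → ℝ}, Continuous F →
      (Tame (n := n) (Icc (0 : ℝ) 1) fun t g => F (hl v1 v2 t g)) →
      ContinuousOn (fun t => ∫ g, F (hl v1 v2 t g) ∂P166.gs n) (Icc (0 : ℝ) 1) := fun {F} hF hT => by
    obtain ⟨C, k, -, hbd⟩ := hT.2
    exact continuousOn_of_dominated (fun t ht => (hT.1 t ht).aestronglyMeasurable)
      (fun t ht => ae_of_all _ fun g => by simpa [Real.norm_eq_abs] using hbd t ht g)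
      ((integrable_env_pow k).const_mul C)
      (ae_of_all _ fun g => (hF.comp (continuous_hl g)).continuousOn)
  have hcQ : Continuous (wQ P w (dcov v1 v2)) := by
    have hu : ∀ a, Continuous fun g => wu P w g a := fun a =>
      (continuous_wp hw hw1 a).mul (P.c1.comp (continuous_apply a))
    exact continuous_finsetSum _ fun a _ => (hu a).mul
      (continuous_finsetSum _ fun c _ => (hu c).const_mul _)
  have hQ : MonotoneOn (fun t => ∫ g, wQ P w (dcov v1 v2) (hl v1 v2 t g) ∂P166.gs n) (Icc (0 : ℝ) 1) := by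
    refine monotoneOn_of_deriv_nonneg (convex_Icc 0 1)
      (hcont hcQ (tame_Q hw hw1 tame_hl)) ?_ ?_
    · intro t ht
      rw [interior_Icc] at ht
      exact (deriv_psi hw hw1 hv ht).differentiableAt.differentiableWithinAt
    · intro t ht
      rw [interior_Icc] at ht
      rw [(deriv_psi hw hw1 hv ht).deriv]
      exact integral_wS_nonneg hw hw1 hP _ _ (vec_sq hv (Ioo_subset_Icc_self ht))
  refine AntitoneOn.concaveOn_of_deriv (convex_Icc 0 1)
    (hcont (continuous_wl hw hw1) (tame_l hw hw1 tame_hl)) ?_ ?_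
  · intro t ht
    rw [interior_Icc] at ht
    exact (deriv_phi hw hw1 hv ht).differentiableAt.differentiableWithinAt
  · rw [interior_Icc]
    intro x hx y hy hxy
    rw [(deriv_phi hw hw1 hv hx).deriv, (deriv_phi hw hw1 hv hy).deriv]
    exact mul_le_mul_of_nonpos_left (hQ (Ioo_subset_Icc_self hx) (Ioo_subset_Icc_self hy) hxy)
      (by norm_num)

end

/-- Weak even potentials have the one-pattern property. -/
theorem onePat (hP : P.Weak) : OnePat P.f := by
  intro a b ha hb ν hν hν1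
  have ha' : (0 : ℝ) < a := by exact_mod_cast ha
  have hb' : (0 : ℝ) < b := by exact_mod_cast hb
  set v1 : (Fin (a + b) → Bool) → Fin (a + b) → ℝ := wv a b (some false)
  set v2 : (Fin (a + b) → Bool) → Fin (a + b) → ℝ := wv a b (some true)
  have hsg : ∀ s, sg s ^ 2 = 1 := fun s => by cases s <;> simp [sg]
  have hadm : Adm v1 v2 := by
    refine ⟨fun s => ?_, fun s => ?_, fun s s' => ?_⟩
    · simp [v1, wv, Fin.sum_univ_add, div_pow, hsg, Real.sq_sqrt ha'.le, ha'.ne']
    · simp [v2, wv, Fin.sum_univ_add, div_pow, hsg, Real.sq_sqrt hb'.le, hb'.ne']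
    · simp [v1, v2, wv, Fin.sum_univ_add]
  set c := (a : ℝ) / (a + b)
  have hc : (b : ℝ) / (a + b) = 1 - c := by
    have : (0 : ℝ) < a + b := by positivity
    simp only [c]; field_simp; ring
  have hmix : ∀ (s : Fin (a + b) → Bool) (i : Fin (a + b)),
      √c * v1 s i + √(1 - c) * v2 s i = wv a b none s i := fun s i => by
    rw [← hc]
    simp only [c, v1, v2]
    induction i using Fin.addCases with
    | left i =>
      simp [wv, Real.sqrt_div ha'.le]
      field_simp
    | right i =>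
      simp [wv, Real.sqrt_div hb'.le]
      field_simp
  have h := (interp_concave hν hν1 hP hadm).2 (right_mem_Icc.2 zero_le_one) (left_mem_Icc.2 zero_le_one)
    (show 0 ≤ c by positivity) (show 0 ≤ 1 - c by rw [← hc]; positivity) (by ring)
  simp only [smul_eq_mul, mul_one, mul_zero, add_zero] at h
  unfold hl vec wl wz at h
  simp only [Real.sqrt_one, Real.sqrt_zero, sub_zero, sub_self, one_mul, zero_mul, add_zero, zero_add,
    hmix] at h
  rw [hc]
  exact h

end Vale.Agent.P157.Weak
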