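import Vale.Agent.P166.Calc

/-!
Derivative identities for `h ↦ log ∑ w_s exp (f h_s)` with a smooth bounded potential `f`.
-/

open MeasureTheory ProbabilityTheory Filter Topology Set
open Vale.Agent.P166 (Tame tame_bdd tame_const vec dvec hl dhl dcov Adm tame_hl tame_dhl
  hasDeriv_hl hasDeriv_hl_update deriv_under ibp_fields contract_vec sum_vec_dvec dcov_diag dcov_symm)

namespace Vale.Agent.P157.Weak

/-- A bounded potential with three bounded derivatives. -/
structure Pot where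
  f : ℝ → ℝ
  f1 : ℝ → ℝ
  f2 : ℝ → ℝ
  f3 : ℝ → ℝ
  bF : ℝ
  bA : ℝ
  bB : ℝ
  bC : ℝ
  d1 : ∀ x, HasDerivAt f (f1 x) x
  d2 : ∀ x, HasDerivAt f1 (f2 x) x
  d3 : ∀ x, HasDerivAt f2 (f3 x) x
  c3 : Continuous f3
  hF : ∀ x, |f x| ≤ bF
  hA : ∀ x, |f1 x| ≤ bA
  hB : ∀ x, |f2 x| ≤ bB
  hC : ∀ x, |f3 x| ≤ bC

namespace Pot

theorem c0 (P : Pot) : Continuous P.f := continuous_iff_continuousAt.2 fun x => (P.d1 x).continuousAt
theorem c1 (P : Pot) : Continuous P.f1 := continuous_iff_continuousAt.2 fun x => (P.d2 x).continuousAt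
theorem c2 (P : Pot) : Continuous P.f2 := continuous_iff_continuousAt.2 fun x => (P.d3 x).continuousAt

end Pot

variable {S : Type*} [Fintype S] (P : Pot) (w : S → ℝ) (D : S → S → ℝ)

noncomputable def wz (h : S → ℝ) : ℝ := ∑ s, w s * Real.exp (P.f (h s))
noncomputable def wl (h : S → ℝ) : ℝ := Real.log (wz P w h)
noncomputable def wp (h : S → ℝ) (a : S) : ℝ := w a * Real.exp (P.f (h a)) / wz P w h
noncomputable def wu (h : S → ℝ) (a : S) : ℝ := wp P w h a * P.f1 (h a)
noncomputable def wq (h : S → ℝ) (a : S) : ℝ := wp P w h a * (P.f1 (h a) ^ 2 + P.f2 (h a))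
noncomputable def wr (h : S → ℝ) (a : S) : ℝ :=
  wp P w h a * (P.f1 (h a) ^ 3 + 3 * P.f1 (h a) * P.f2 (h a) + P.f3 (h a))
noncomputable def wy (h : S → ℝ) (a : S) : ℝ := ∑ c, D a c * wu P w h c
noncomputable def wQ (h : S → ℝ) : ℝ := ∑ a, wu P w h a * wy P w D h a
noncomputable def wk (h : S → ℝ) (c : S) : ℝ := wq P w h c * wy P w D h c - wu P w h c * wQ P w D h
noncomputable def wg (h : S → ℝ) (c : S) : ℝ := wr P w h c * wy P w D h c - wq P w h c * wQ P w D h
/-- The expression of the second derivative. -/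
noncomputable def wS (h : S → ℝ) : ℝ :=
  ∑ a, wq P w h a * (∑ c, D a c ^ 2 * wq P w h c)
    - 4 * ∑ a, wq P w h a * wy P w D h a ^ 2 + 3 * wQ P w D h ^ 2

variable {P} {w} {D}

section deriv

theorem wz_pos (hw : ∀ s, 0 ≤ w s) (hw1 : ∑ s, w s = 1) (h : S → ℝ) : 0 < wz P w h := by
  obtain ⟨s, hs⟩ : ∃ s, 0 < w s := by
    by_contra hc
    push Not at hc
    linarith [Finset.sum_eq_zero (s := (Finset.univ : Finset S)) fun s _ => le_antisymm (hc s) (hw s)]
  exact Finset.sum_pos' (fun t _ => mul_nonneg (hw t) (Real.exp_pos _).le)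
    ⟨s, Finset.mem_univ s, mul_pos hs (Real.exp_pos _)⟩

variable (hw : ∀ s, 0 ≤ w s) (hw1 : ∑ s, w s = 1) {h : ℝ → S → ℝ} {dh : S → ℝ} {x : ℝ}
  (hh : ∀ a, HasDerivAt (fun t => h t a) (dh a) x)
include hw hw1 hh

theorem hasDeriv_z : HasDerivAt (fun t => wz P w (h t))
    (wz P w (h x) * ∑ c, wu P w (h x) c * dh c) x := by
  have hz := (wz_pos (P := P) hw hw1 (h x)).ne'
  refine (HasDerivAt.fun_sum (u := Finset.univ) fun c _ =>
    (((P.d1 (h x c)).comp x (hh c)).exp).const_mul (w c)).congr_deriv ?_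
  rw [Finset.mul_sum]
  refine Finset.sum_congr rfl fun c _ => ?_
  simp only [wu, wp, Function.comp_apply]
  field_simp

theorem hasDeriv_l : HasDerivAt (fun t => wl P w (h t)) (∑ c, wu P w (h x) c * dh c) x := by
  have hz := (wz_pos (P := P) hw hw1 (h x)).ne'
  refine ((hasDeriv_z hw hw1 hh).log hz).congr_deriv ?_
  field_simp

theorem hasDeriv_p (a : S) : HasDerivAt (fun t => wp P w (h t) a)
    (wp P w (h x) a * (P.f1 (h x a) * dh a - ∑ c, wu P w (h x) c * dh c)) x := by
  have hz := (wz_pos (P := P) hw hw1 (h x)).ne'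
  refine (((((P.d1 (h x a)).comp x (hh a)).exp).const_mul (w a)).div
    (hasDeriv_z hw hw1 hh) hz).congr_deriv ?_
  simp only [wp, Function.comp_apply]
  field_simp

theorem hasDeriv_u (a : S) : HasDerivAt (fun t => wu P w (h t) a)
    (wq P w (h x) a * dh a - wu P w (h x) a * ∑ c, wu P w (h x) c * dh c) x := by
  refine ((hasDeriv_p (P := P) hw hw1 hh a).mul ((P.d2 (h x a)).comp x (hh a))).congr_deriv ?_
  simp only [wq, Function.comp_apply]
  generalize ∑ c, wu P w (h x) c * dh c = T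
  simp only [wu]
  ring

theorem hasDeriv_q (a : S) : HasDerivAt (fun t => wq P w (h t) a)
    (wr P w (h x) a * dh a - wq P w (h x) a * ∑ c, wu P w (h x) c * dh c) x := by
  refine ((hasDeriv_p (P := P) hw hw1 hh a).mul
    ((((P.d2 (h x a)).comp x (hh a)).pow 2).add ((P.d3 (h x a)).comp x (hh a)))).congr_deriv ?_
  simp only [wr, wq, Function.comp_apply, Pi.add_apply, Pi.pow_apply]
  generalize ∑ c, wu P w (h x) c * dh c = T
  ring

theorem hasDeriv_y (a : S) : HasDerivAt (fun t => wy P w D (h t) a)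
    (∑ c, D a c * wq P w (h x) c * dh c
      - wy P w D (h x) a * ∑ c, wu P w (h x) c * dh c) x := by
  refine (HasDerivAt.fun_sum (u := Finset.univ) fun c _ =>
    (hasDeriv_u (P := P) hw hw1 hh c).const_mul (D a c)).congr_deriv ?_
  simp only [mul_sub, Finset.sum_sub_distrib, wy]
  generalize ∑ c, wu P w (h x) c * dh c = T
  congr 1
  · exact Finset.sum_congr rfl fun c _ => by ring
  · rw [Finset.sum_mul]; exact Finset.sum_congr rfl fun c _ => by ring

theorem hasDeriv_Q (hD : ∀ a c, D a c = D c a) : HasDerivAt (fun t => wQ P w D (h t))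
    (2 * ∑ c, wk P w D (h x) c * dh c) x := by
  refine (HasDerivAt.fun_sum (u := Finset.univ) fun a _ =>
    (hasDeriv_u (P := P) hw hw1 hh a).mul (hasDeriv_y (P := P) (D := D) hw hw1 hh a)).congr_deriv ?_
  set T := ∑ c, wu P w (h x) c * dh c
  have e : ∑ a, wu P w (h x) a * ∑ c, D a c * wq P w (h x) c * dh c
      = ∑ c, wq P w (h x) c * dh c * wy P w D (h x) c := by
    simp only [wy, Finset.mul_sum]
    rw [Finset.sum_comm]
    exact Finset.sum_congr rfl fun c _ => Finset.sum_congr rfl fun a _ => by rw [hD]; ring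
  have eR : ∑ c, wk P w D (h x) c * dh c
      = ∑ c, wq P w (h x) c * dh c * wy P w D (h x) c - wQ P w D (h x) * T := by
    simp only [wk, sub_mul, Finset.sum_sub_distrib, T, Finset.mul_sum]
    congr 1 <;> exact Finset.sum_congr rfl fun c _ => by ring
  have e1 : ∑ a, wu P w (h x) a * T * wy P w D (h x) a = wQ P w D (h x) * T := by
    simp only [wQ, Finset.sum_mul]; exact Finset.sum_congr rfl fun a _ => by ring
  have e2 : ∑ a, wu P w (h x) a * (wy P w D (h x) a * T) = wQ P w D (h x) * T := by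
    rw [← e1]; exact Finset.sum_congr rfl fun a _ => by ring
  rw [eR]
  simp only [sub_mul, mul_sub, Finset.sum_add_distrib, Finset.sum_sub_distrib, e, e1, e2]
  ring

theorem hasDeriv_k (hD : ∀ a c, D a c = D c a) (a : S) :
    HasDerivAt (fun t => wk P w D (h t) a)
      (wg P w D (h x) a * dh a
        + (wq P w (h x) a * (∑ c, D a c * wq P w (h x) c * dh c
            - 2 * wy P w D (h x) a * ∑ c, wu P w (h x) c * dh c)
          + wu P w (h x) a * wQ P w D (h x) * ∑ c, wu P w (h x) c * dh c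
          - 2 * wu P w (h x) a * ∑ c, wk P w D (h x) c * dh c)) x := by
  refine (((hasDeriv_q (P := P) hw hw1 hh a).mul (hasDeriv_y (P := P) (D := D) hw hw1 hh a)).sub
    ((hasDeriv_u (P := P) hw hw1 hh a).mul
      (hasDeriv_Q (P := P) (D := D) hw hw1 hh hD))).congr_deriv ?_
  simp only [wg]
  ring

omit hw hw1 hh in
/-- The contracted derivative of `k`. -/
theorem contract (hD : ∀ a c, D a c = D c a) (h0 : ∀ a, D a a = 0) (h : S → ℝ) :
    ∑ a, (wg P w D h a * D a a
      + (wq P w h a * (∑ c, D a c * wq P w h c * D a c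
            - 2 * wy P w D h a * ∑ c, wu P w h c * D a c)
          + wu P w h a * wQ P w D h * ∑ c, wu P w h c * D a c
          - 2 * wu P w h a * ∑ c, wk P w D h c * D a c)) = wS P w D h := by
  have ey : ∀ a, ∑ c, wu P w h c * D a c = wy P w D h a := fun a =>
    Finset.sum_congr rfl fun c _ => mul_comm _ _
  have ek : ∑ a, wu P w h a * ∑ c, wk P w D h c * D a c
      = ∑ c, wq P w h c * wy P w D h c ^ 2 - wQ P w D h ^ 2 := by
    simp only [Finset.mul_sum]
    rw [Finset.sum_comm]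
    have key : ∀ c, ∑ a, wu P w h a * (wk P w D h c * D a c) = wk P w D h c * wy P w D h c := fun c => by
      simp only [wy, Finset.mul_sum]
      exact Finset.sum_congr rfl fun a _ => by rw [hD]; ring
    rw [Finset.sum_congr rfl fun c _ => key c]
    rw [show wQ P w D h ^ 2 = wQ P w D h * ∑ a, wu P w h a * wy P w D h a by
      rw [pow_two]; rfl, Finset.mul_sum, ← Finset.sum_sub_distrib]
    exact Finset.sum_congr rfl fun c _ => by simp only [wk]; ring
  have eq2 : ∑ a, wu P w h a * wQ P w D h * wy P w D h a = wQ P w D h ^ 2 := by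
    rw [show wQ P w D h ^ 2 = wQ P w D h * ∑ a, wu P w h a * wy P w D h a by
      rw [pow_two]; rfl, Finset.mul_sum]
    exact Finset.sum_congr rfl fun c _ => by ring
  have e4 : ∑ a, 2 * wu P w h a * ∑ c, wk P w D h c * D a c
      = 2 * (∑ c, wq P w h c * wy P w D h c ^ 2 - wQ P w D h ^ 2) := by
    rw [← ek, Finset.mul_sum]
    exact Finset.sum_congr rfl fun c _ => by ring
  simp only [h0, mul_zero, zero_add, ey, mul_sub, Finset.sum_add_distrib, Finset.sum_sub_distrib,
    eq2, e4, wS]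
  have e5 : ∑ a, wq P w h a * ∑ c, D a c * wq P w h c * D a c
      = ∑ a, wq P w h a * ∑ c, D a c ^ 2 * wq P w h c :=
    Finset.sum_congr rfl fun a _ => by
      congr 1; exact Finset.sum_congr rfl fun c _ => by ring
  have e6 : ∑ a, wq P w h a * (2 * wy P w D h a * wy P w D h a)
      = 2 * ∑ a, wq P w h a * wy P w D h a ^ 2 := by
    rw [Finset.mul_sum]; exact Finset.sum_congr rfl fun c _ => by ring
  rw [e5, e6]
  ring

end deriv

section tame

variable {n : ℕ} (hw : ∀ s, 0 ≤ w s) (hw1 : ∑ s, w s = 1) {T : Set ℝ}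
  {h : ℝ → (Fin n → ℝ) → S → ℝ} (hh : ∀ s, Tame T fun t g => h t g s)
include hw hw1

theorem wp_mem (g : S → ℝ) (a : S) : wp P w g a ∈ Icc (0 : ℝ) 1 := by
  have hz := wz_pos (P := P) hw hw1 g
  refine ⟨div_nonneg (mul_nonneg (hw a) (Real.exp_pos _).le) hz.le, ?_⟩
  rw [wp, div_le_one hz]
  exact Finset.single_le_sum (f := fun s => w s * Real.exp (P.f (g s)))
    (fun s _ => mul_nonneg (hw s) (Real.exp_pos _).le) (Finset.mem_univ a)

theorem continuous_wl : Continuous (wl P w) := by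
  have := P.c0
  exact (show Continuous (wz P w) by unfold wz; fun_prop).log fun g => (wz_pos hw hw1 g).ne'

theorem continuous_wp (a : S) : Continuous fun g => wp P w g a := by
  have := P.c0
  exact Continuous.div (by fun_prop) (by unfold wz; fun_prop) fun g => (wz_pos hw hw1 g).ne'

theorem abs_wl_le (g : S → ℝ) : |wl P w g| ≤ P.bF := by
  have hz := wz_pos (P := P) hw hw1 g
  refine abs_le.2 ⟨(Real.le_log_iff_exp_le hz).2 ?_, (Real.log_le_iff_le_exp hz).2 ?_⟩
  · calc Real.exp (-P.bF) = ∑ s, w s * Real.exp (-P.bF) := by rw [← Finset.sum_mul, hw1, one_mul]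
      _ ≤ _ := Finset.sum_le_sum fun s _ =>
        mul_le_mul_of_nonneg_left (Real.exp_le_exp.2 (abs_le.1 (P.hF _)).1) (hw s)
  · calc wz P w g ≤ ∑ s, w s * Real.exp P.bF := Finset.sum_le_sum fun s _ =>
          mul_le_mul_of_nonneg_left (Real.exp_le_exp.2 (abs_le.1 (P.hF _)).2) (hw s)
      _ = _ := by rw [← Finset.sum_mul, hw1, one_mul]

include hh

omit hw hw1 in
theorem tame_comp {φ : ℝ → ℝ} (hc : Continuous φ) {C : ℝ} (hb : ∀ x, |φ x| ≤ C) (a : S) :
    Tame T fun t g => φ (h t g a) :=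
  tame_bdd (fun t ht => hc.comp ((hh a).1 t ht)) ((abs_nonneg _).trans (hb 0)) fun _ _ _ => hb _

theorem tame_l : Tame T fun t g => wl P w (h t g) :=
  tame_bdd (fun t ht => (continuous_wl hw hw1).comp (continuous_pi fun s => (hh s).1 t ht))
    ((abs_nonneg _).trans (P.hF 0)) fun t _ g => abs_wl_le hw hw1 _

theorem tame_p (a : S) : Tame T fun t g => wp P w (h t g) a :=
  tame_bdd (fun t ht => (continuous_wp hw hw1 a).comp (continuous_pi fun s => (hh s).1 t ht))
    zero_le_one fun t _ g => by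
      rw [abs_of_nonneg (wp_mem hw hw1 _ a).1]; exact (wp_mem hw hw1 _ a).2

theorem tame_u (a : S) : Tame T fun t g => wu P w (h t g) a :=
  (tame_p hw hw1 hh a).mul (tame_comp hh P.c1 P.hA a)

theorem tame_q (a : S) : Tame T fun t g => wq P w (h t g) a := by
  have := tame_comp hh P.c1 P.hA a
  exact (tame_p hw hw1 hh a).mul (by simpa only [pow_two] using (this.mul this).add (tame_comp hh P.c2 P.hB a))

theorem tame_r (a : S) : Tame T fun t g => wr P w (h t g) a := by
  have t1 := tame_comp hh P.c1 P.hA a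
  exact (tame_p hw hw1 hh a).mul (by
    simpa only [pow_succ, pow_zero, one_mul] using
      (((t1.mul t1).mul t1).add ((t1.const_mul 3).mul (tame_comp hh P.c2 P.hB a))).add
        (tame_comp hh P.c3 P.hC a))

theorem tame_y (a : S) : Tame T fun t g => wy P w D (h t g) a :=
  Tame.sum _ fun c _ => (tame_u hw hw1 hh c).const_mul _

theorem tame_Q : Tame T fun t g => wQ P w D (h t g) :=
  Tame.sum _ fun c _ => (tame_u hw hw1 hh c).mul (tame_y hw hw1 hh c)

theorem tame_k (a : S) : Tame T fun t g => wk P w D (h t g) a :=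
  ((tame_q hw hw1 hh a).mul (tame_y hw hw1 hh a)).sub ((tame_u hw hw1 hh a).mul (tame_Q hw hw1 hh))

theorem tame_g (a : S) : Tame T fun t g => wg P w D (h t g) a :=
  ((tame_r hw hw1 hh a).mul (tame_y hw hw1 hh a)).sub ((tame_q hw hw1 hh a).mul (tame_Q hw hw1 hh))

theorem tame_S : Tame T fun t g => wS P w D (h t g) := by
  have := ((Tame.sum Finset.univ fun a _ => (tame_q (P := P) hw hw1 hh a).mul
      (Tame.sum Finset.univ fun c _ => (tame_q (P := P) hw hw1 hh c).const_mul (D a c ^ 2))).sub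
    ((Tame.sum Finset.univ fun a _ => (tame_q (P := P) hw hw1 hh a).mul
      ((tame_y (P := P) (D := D) hw hw1 hh a).mul (tame_y (P := P) (D := D) hw hw1 hh a))).const_mul 4)).add
    (((tame_Q (P := P) (D := D) hw hw1 hh).mul (tame_Q (P := P) (D := D) hw hw1 hh)).const_mul 3)
  simpa only [wS, pow_two] using this

end tame

section interp

variable {n : ℕ} {v1 v2 : S → Fin n → ℝ} (hw : ∀ s, 0 ≤ w s) (hw1 : ∑ s, w s = 1) (hv : Adm v1 v2)
  {t : ℝ} (ht : t ∈ Ioo (0 : ℝ) 1)
include hw hw1 hv ht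

/-- First derivative along the interpolation. -/
theorem deriv_phi : HasDerivAt (fun r => ∫ g, wl P w (hl v1 v2 r g) ∂P166.gs n)
    (-(1 / 2) * ∫ g, wQ P w (dcov v1 v2) (hl v1 v2 t g) ∂P166.gs n) t := by
  have hsub : Icc (t / 2) ((1 + t) / 2) ⊆ Icc (0 : ℝ) 1 :=
    Icc_subset_Icc (by linarith [ht.1]) (by linarith [ht.2])
  have hT : ∀ s : S, Tame ({t} : Set ℝ) fun r g => hl v1 v2 r g s := fun s =>
    (tame_hl s).mono (singleton_subset_iff.2 (Ioo_subset_Icc_self ht))
  refine (deriv_under ht (tame_l hw hw1 tame_hl)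
    (F' := fun r g => ∑ c, wu P w (hl v1 v2 r g) c * dhl v1 v2 r g c)
    (Tame.sum _ fun c _ => ((tame_u hw hw1 fun s => (tame_hl s).mono hsub) c).mul
      (tame_dhl (by linarith [ht.1]) (by linarith [ht.2]) c))
    fun r hr g => hasDeriv_l hw hw1 fun a => hasDeriv_hl
      ⟨by linarith [hr.1, ht.1], by linarith [hr.2, ht.2]⟩ g a).congr_deriv ?_
  rw [ibp_fields (F := fun c g => wu P w (hl v1 v2 t g) c)
    (F' := fun c i g => wq P w (hl v1 v2 t g) c * vec v1 v2 t c i
      - wu P w (hl v1 v2 t g) c * ∑ e, wu P w (hl v1 v2 t g) e * vec v1 v2 t e i)]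
  rotate_left
  · intro c
    obtain ⟨h1, C, k, hC, hb⟩ := tame_u (P := P) hw hw1 hT c
    exact ⟨fun _ _ => h1 t rfl, C, k, hC, fun _ _ g => hb t rfl g⟩
  · intro c i
    obtain ⟨h1, C, k, hC, hb⟩ := ((tame_q (P := P) hw hw1 hT c).mul (tame_const (vec v1 v2 t c i))).sub
      ((tame_u (P := P) hw hw1 hT c).mul (Tame.sum Finset.univ fun e _ =>
        (tame_u (P := P) hw hw1 hT e).mul (tame_const (vec v1 v2 t e i))))
    exact ⟨fun _ _ => h1 t rfl, C, k, hC, fun _ _ g => hb t rfl g⟩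
  · intro c i g
    have := hasDeriv_u (P := P) hw hw1 (h := fun x => hl v1 v2 t (Function.update g i x))
      (x := g i) (fun a => hasDeriv_hl_update t g i (g i) a) c
    simpa using this
  rw [← integral_const_mul]
  congr 1; funext g
  set h := hl v1 v2 t g
  rw [wQ, Finset.mul_sum]
  refine Finset.sum_congr rfl fun c _ => ?_
  have e : ∑ i, dvec v1 v2 t c i * (wq P w h c * vec v1 v2 t c i
      - wu P w h c * ∑ e, wu P w h e * vec v1 v2 t e i)
      = wq P w h c * (∑ i, dvec v1 v2 t c i * vec v1 v2 t c i)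
        - wu P w h c * ∑ i, dvec v1 v2 t c i * ∑ e, wu P w h e * vec v1 v2 t e i := by
    rw [Finset.mul_sum, Finset.mul_sum, ← Finset.sum_sub_distrib]
    exact Finset.sum_congr rfl fun i _ => by ring
  rw [e, contract_vec hv ht, sum_vec_dvec hv ht, dcov_diag hv, wy]
  simp only [Finset.mul_sum, zero_div, mul_zero, zero_sub, ← Finset.sum_neg_distrib]
  exact Finset.sum_congr rfl fun e _ => by ring

/-- Derivative of the quadratic form. -/
theorem deriv_psi : HasDerivAt (fun r => ∫ g, wQ P w (dcov v1 v2) (hl v1 v2 r g) ∂P166.gs n)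
    (∫ g, wS P w (dcov v1 v2) (hl v1 v2 t g) ∂P166.gs n) t := by
  set D := dcov v1 v2
  have hsub : Icc (t / 2) ((1 + t) / 2) ⊆ Icc (0 : ℝ) 1 :=
    Icc_subset_Icc (by linarith [ht.1]) (by linarith [ht.2])
  have hT : ∀ s : S, Tame ({t} : Set ℝ) fun r g => hl v1 v2 r g s := fun s =>
    (tame_hl s).mono (singleton_subset_iff.2 (Ioo_subset_Icc_self ht))
  refine (deriv_under ht (tame_Q hw hw1 tame_hl)
    (F' := fun r g => 2 * ∑ c, wk P w D (hl v1 v2 r g) c * dhl v1 v2 r g c)
    ((Tame.sum _ fun c _ => ((tame_k hw hw1 fun s => (tame_hl s).mono hsub) c).mul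
      (tame_dhl (by linarith [ht.1]) (by linarith [ht.2]) c)).const_mul 2)
    fun r hr g => hasDeriv_Q hw hw1 (fun a => hasDeriv_hl
      ⟨by linarith [hr.1, ht.1], by linarith [hr.2, ht.2]⟩ g a) dcov_symm).congr_deriv ?_
  rw [integral_const_mul, ibp_fields (F := fun c g => wk P w D (hl v1 v2 t g) c)
    (F' := fun a i g =>
      let h := hl v1 v2 t g
      wg P w D h a * vec v1 v2 t a i
        + (wq P w h a * (∑ c, D a c * wq P w h c * vec v1 v2 t c i
            - 2 * wy P w D h a * ∑ c, wu P w h c * vec v1 v2 t c i)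
          + wu P w h a * wQ P w D h * ∑ c, wu P w h c * vec v1 v2 t c i
          - 2 * wu P w h a * ∑ c, wk P w D h c * vec v1 v2 t c i))]
  rotate_left
  · intro c
    obtain ⟨h1, C, k, hC, hb⟩ := tame_k (P := P) (D := D) hw hw1 hT c
    exact ⟨fun _ _ => h1 t rfl, C, k, hC, fun _ _ g => hb t rfl g⟩
  · intro a i
    have tq := tame_q (P := P) hw hw1 hT
    have tu := tame_u (P := P) hw hw1 hT
    have tv : ∀ (X : S → ℝ → (Fin n → ℝ) → ℝ), (∀ c, Tame {t} (X c)) →
        Tame {t} fun r g => ∑ c, X c r g * vec v1 v2 t c i := fun X hX =>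
      Tame.sum _ fun c _ => (hX c).mul (tame_const _)
    obtain ⟨h1, C, k, hC, hb⟩ := ((tame_g (P := P) (D := D) hw hw1 hT a).mul (tame_const (vec v1 v2 t a i))).add
      ((((tq a).mul (((tv _ fun c => (tame_const (D a c)).mul (tq c))).sub
        (((tame_y (P := P) (D := D) hw hw1 hT a).const_mul 2).mul (tv _ tu)))).add
        (((tu a).mul (tame_Q (P := P) (D := D) hw hw1 hT)).mul (tv _ tu))).sub
        (((tu a).const_mul 2).mul (tv _ (tame_k (P := P) (D := D) hw hw1 hT))))
    exact ⟨fun _ _ => h1 t rfl, C, k, hC, fun _ _ g => hb t rfl g⟩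
  · intro c i g
    have := hasDeriv_k (P := P) (D := D) hw hw1 (h := fun x => hl v1 v2 t (Function.update g i x))
      (x := g i) (fun a => hasDeriv_hl_update t g i (g i) a) dcov_symm c
    simpa using this
  rw [← integral_const_mul]
  congr 1; funext g
  set h := hl v1 v2 t g
  rw [← contract (P := P) (w := w) dcov_symm (dcov_diag hv) h, Finset.mul_sum]
  refine Finset.sum_congr rfl fun a _ => ?_
  have lin : ∀ X : S → ℝ, ∑ i, dvec v1 v2 t a i * ∑ c, X c * vec v1 v2 t c i
      = (∑ c, X c * D a c) / 2 := fun X => by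
    rw [contract_vec hv ht, Finset.sum_div]
    exact Finset.sum_congr rfl fun c _ => by ring
  have e : ∑ i, dvec v1 v2 t a i * (wg P w D h a * vec v1 v2 t a i
        + (wq P w h a * (∑ c, D a c * wq P w h c * vec v1 v2 t c i
            - 2 * wy P w D h a * ∑ c, wu P w h c * vec v1 v2 t c i)
          + wu P w h a * wQ P w D h * ∑ c, wu P w h c * vec v1 v2 t c i
          - 2 * wu P w h a * ∑ c, wk P w D h c * vec v1 v2 t c i))
      = wg P w D h a * (∑ i, dvec v1 v2 t a i * vec v1 v2 t a i)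
        + (wq P w h a * (∑ i, dvec v1 v2 t a i * ∑ c, D a c * wq P w h c * vec v1 v2 t c i
            - 2 * wy P w D h a * ∑ i, dvec v1 v2 t a i * ∑ c, wu P w h c * vec v1 v2 t c i)
          + wu P w h a * wQ P w D h
              * ∑ i, dvec v1 v2 t a i * ∑ c, wu P w h c * vec v1 v2 t c i
          - 2 * wu P w h a * ∑ i, dvec v1 v2 t a i * ∑ c, wk P w D h c * vec v1 v2 t c i) := by
    simp only [mul_add, mul_sub, Finset.sum_add_distrib, Finset.sum_sub_distrib]
    simp only [Finset.mul_sum]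
    refine congrArg₂ (· + ·) ?_ (congrArg₂ (· - ·) (congrArg₂ (· + ·) (congrArg₂ (· - ·) ?_ ?_) ?_) ?_)
    all_goals
      exact Finset.sum_congr rfl fun i _ => by
        ring_nf
  rw [e, lin, lin, lin, sum_vec_dvec hv ht, dcov_diag hv]
  ring

end interp

end Vale.Agent.P157.Weak
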